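import Vale.Agent.P297.H871.Z2.Z0
import Vale.Agent.P297.Gen.Setup

/-!
General numerical Godeaux surfaces with torsion of order two: the points of the surface on the
lines through the node over `l = 0`, in a generic plane `W = const`, are generic.
-/

set_option linter.unusedSectionVars false
set_option linter.style.haveILetI false

open Polynomial

namespace Vale.Agent.P297.H871.Z2

open Vale.Agent.P297 Vale.Agent.P297.H160.Z2Irr Vale.Agent.P297.H72 Vale.Agent.P297.Z2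
open Vale.Agent.P297.Gen

section closed

variable {N : Type} [Field N] [Algebra ℂ N] [IsAlgClosed N]

/-- The relative algebraic closure of `ℂ(ε)` as a field over `ℂ`. -/
theorem alg_cl {ε : N} (hε : Transcendental ℂ ε) (x : cl0 ({ε} : Set N)) :
    IsAlgebraic (Algebra.adjoin ℂ ({⟨ε, subset_cl0 _ rfl⟩} : Set (cl0 ({ε} : Set N)))) x := by
  have hx : IsAlgebraic (Algebra.adjoin ℂ ({ε} : Set N)) (x : N) :=
    IntermediateField.isAlgebraic_adjoin_iff.1 (mem_cl0.1 x.2)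
  obtain ⟨G, hG, hGx⟩ := exists_primitive hε hx
  obtain ⟨t, ht⟩ : ∃ t : cl0 ({ε} : Set N), t = ⟨ε, subset_cl0 _ rfl⟩ := ⟨_, rfl⟩
  rw [← ht]
  let f : ℂ[X] →ₐ[ℂ] Algebra.adjoin ℂ ({t} : Set (cl0 ({ε} : Set N))) :=
    aeval ⟨t, Algebra.subset_adjoin rfl⟩
  have hf : ((cl0 ({ε} : Set N)).val.comp
      (Algebra.adjoin ℂ ({t} : Set (cl0 ({ε} : Set N)))).val).comp f = aeval ε := by
    ext
    simp [f, ht]
  have hinj : Function.Injective f := by
    intro a b hab
    apply transcendental_iff_injective.1 hε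
    rw [← hf]
    simp only [AlgHom.comp_apply, hab]
  refine ⟨G.map f.toRingHom, ?_, ?_⟩
  · rw [Ne, Polynomial.map_eq_zero_iff hinj]
    exact hG.ne_zero
  · apply (cl0 ({ε} : Set N)).val.injective
    rw [map_zero, aeval_def, eval₂_map]
    change (cl0 ({ε} : Set N)).val.toRingHom _ = 0
    rw [hom_eval₂]
    rw [← hGx]
    congr 1
    exact congrArg AlgHom.toRingHom hf

end closed

section zero

variable {N : Type} [Field N] [Algebra ℂ N]

theorem tB_zero {P : Par} (hM1 : P.M1 = 0) (p0 W z : N) :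
    tB P 0 p0 (W - p0 - z) z =
      (W ^ 2 + algebraMap ℂ N P.Q0 * p0 + algebraMap ℂ N P.Q1 * (W - p0) - algebraMap ℂ N P.m -
        algebraMap ℂ N P.Q1 * z) *
      (W ^ 2 + algebraMap ℂ N P.Q0 * p0 + algebraMap ℂ N P.Q1 * (W - p0) - algebraMap ℂ N P.m -
        algebraMap ℂ N P.Q1 * z -
        4 * (p0 * (W - p0 - z) - algebraMap ℂ N P.P0 * algebraMap ℂ N P.P2)) := by
  have hm : fm P z = algebraMap ℂ N P.m - z ^ 2 := by
    unfold fm
    rw [hM1, map_zero, zero_mul, add_zero]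
  unfold tB Dat.Bq Dat.K Dat.J0 Dat.N
  have e1 : (dat P z).a = 2 * z + algebraMap ℂ N P.Q0 := rfl
  have e2 : (dat P z).c = 2 * z + algebraMap ℂ N P.Q1 := rfl
  have e3 : (dat P z).m = algebraMap ℂ N P.m - z ^ 2 := hm
  have e4 : (dat P z).A = algebraMap ℂ N P.P0 := rfl
  have e5 : (dat P z).B = algebraMap ℂ N P.P2 := rfl
  rw [e1, e2, e3, e4, e5]
  ring

theorem J0_zero {P : Par} (hM1 : P.M1 = 0) (p0 W z : N) :
    (dat P z).J0 p0 (W - p0 - z) =
      W ^ 2 + algebraMap ℂ N P.Q0 * p0 + algebraMap ℂ N P.Q1 * (W - p0) - algebraMap ℂ N P.m -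
        algebraMap ℂ N P.Q1 * z := by
  have hm : fm P z = algebraMap ℂ N P.m - z ^ 2 := by
    unfold fm
    rw [hM1, map_zero, zero_mul, add_zero]
  unfold Dat.J0
  have e1 : (dat P z).a = 2 * z + algebraMap ℂ N P.Q0 := rfl
  have e2 : (dat P z).c = 2 * z + algebraMap ℂ N P.Q1 := rfl
  have e3 : (dat P z).m = algebraMap ℂ N P.m - z ^ 2 := hm
  rw [e1, e2, e3]
  ring

theorem const_of_alg {x : N} (h : IsAlgebraic ℂ x) : ∃ z : ℂ, algebraMap ℂ N z = x :=
  minpoly.mem_range_of_degree_eq_one ℂ x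
    (IsAlgClosed.degree_eq_one_of_irreducible ℂ (minpoly.irreducible h.isIntegral))

theorem alg_of_sq {x : N} {z : ℂ} (h : x ^ 2 = algebraMap ℂ N z) : IsAlgebraic ℂ x := by
  refine IsAlgebraic.of_pow two_pos ?_
  rw [h]
  exact isAlgebraic_algebraMap z

end zero

/-- **[Z0b]** The points of the surface on a line through the node `(0 : -1 : 1)` over `l = 0`
in the plane `W`. -/
theorem Z0b {N : Type} [Field N] [Algebra ℂ N] [IsAlgClosed N] {P : Par}
    (hP0 : P.P0 ≠ 0) (hP2 : P.P2 ≠ 0) (hQ1 : P.Q1 ≠ 0) (huv : P.u ≠ P.v) (hM1 : P.M1 = 0)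
    (hve : (P.u - P.v) * (P.Q0 - 2 * P.v) + P.n - P.v ^ 2 - P.P1 * P.v ≠ 0)
    (hgh : ∀ z : ℂ, (dat P z).h 0 = 0 → (dat P z).g ≠ 0) {p0 W s s' y : N}
    (hW : Transcendental ℂ W) (hB : ∀ z : N, tB P 0 p0 (W - p0 - z) z = (s * z + s') ^ 2)
    (hne : tPhi P (C 0 : N[X]) (C 0 * X + C p0) (C (-1) * X + C (W - p0)) X (C s * X + C s') ≠ 0)
    (hΦ : tPhi P 0 p0 (W - p0 - y) y (s * y + s') = 0) :
    fU P y ≠ 0 ∧ fV P y ≠ 0 ∧ (dat P y).E p0 ≠ 0 ∧ (dat P y).h 0 ≠ 0 := by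
  have : CharZero N := charZero_of_injective_algebraMap (algebraMap ℂ N).injective
  have hA : algebraMap ℂ N P.P0 ≠ 0 := (_root_.map_ne_zero _).2 hP0
  have hB' : algebraMap ℂ N P.P2 ≠ 0 := (_root_.map_ne_zero _).2 hP2
  have hq : algebraMap ℂ N P.Q1 ≠ 0 := (_root_.map_ne_zero _).2 hQ1
  -- the coefficients
  obtain ⟨j0, hj0⟩ : ∃ j0, j0 = W ^ 2 + algebraMap ℂ N P.Q0 * p0 +
    algebraMap ℂ N P.Q1 * (W - p0) - algebraMap ℂ N P.m := ⟨_, rfl⟩
  obtain ⟨n0, hn0⟩ : ∃ n0, n0 = p0 * (W - p0) - algebraMap ℂ N P.P0 * algebraMap ℂ N P.P2 :=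
    ⟨_, rfl⟩
  have hz : ∀ z : N, (j0 - algebraMap ℂ N P.Q1 * z) *
      (j0 - 4 * n0 - (algebraMap ℂ N P.Q1 - 4 * p0) * z) = (s * z + s') ^ 2 := by
    intro z
    rw [← hB z, tB_zero hM1, hj0, hn0]
    ring
  have z0 := hz 0
  have z1 := hz 1
  have z2 := hz (-1)
  have c0 : s' ^ 2 = j0 * (j0 - 4 * n0) := by linear_combination -z0
  have c2 : s ^ 2 = algebraMap ℂ N P.Q1 * (algebraMap ℂ N P.Q1 - 4 * p0) := by
    apply mul_left_cancel₀ (two_ne_zero (α := N))
    linear_combination 2 * z0 - z1 - z2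
  have c1 : 2 * s * s' = -(j0 * (algebraMap ℂ N P.Q1 - 4 * p0) +
      algebraMap ℂ N P.Q1 * (j0 - 4 * n0)) := by
    apply mul_left_cancel₀ (two_ne_zero (α := N))
    linear_combination z2 - z1
  have hdisc : p0 * j0 = algebraMap ℂ N P.Q1 * n0 := by
    have h1 : (4 * p0 * j0 - 4 * (algebraMap ℂ N P.Q1 * n0)) ^ 2 = 0 := by
      linear_combination (-(2 * s * s') + (j0 * (algebraMap ℂ N P.Q1 - 4 * p0) +
        algebraMap ℂ N P.Q1 * (j0 - 4 * n0))) * c1 + 4 * s' ^ 2 * c2 +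
        4 * (algebraMap ℂ N P.Q1 * (algebraMap ℂ N P.Q1 - 4 * p0)) * c0
    have h2 := pow_eq_zero_iff (two_ne_zero) |>.1 h1
    apply mul_left_cancel₀ (show (4 : N) ≠ 0 by norm_num)
    linear_combination h2
  have h3 : p0 * (W ^ 2 + algebraMap ℂ N P.Q0 * p0 - algebraMap ℂ N P.m) +
      algebraMap ℂ N P.Q1 * algebraMap ℂ N P.P0 * algebraMap ℂ N P.P2 = 0 := by
    rw [hj0, hn0] at hdisc
    linear_combination hdisc
  have hp0 : p0 ≠ 0 := by
    rintro rfl
    rw [zero_mul, zero_add] at h3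
    exact mul_ne_zero (mul_ne_zero hq hA) hB' h3
  have hp0t : Transcendental ℂ p0 := by
    intro halg
    obtain ⟨z, hz⟩ := const_of_alg halg
    have hz0 : z ≠ 0 := by
      rintro rfl
      rw [map_zero] at hz
      exact hp0 hz.symm
    apply hW
    refine alg_of_sq (z := P.m - P.Q0 * z - P.Q1 * P.P0 * P.P2 / z) ?_
    rw [map_sub, map_sub, map_div₀, map_mul, map_mul, map_mul, hz]
    field_simp
    linear_combination h3
  have hs : s ≠ 0 := by
    rintro rfl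
    have h4 : algebraMap ℂ N P.Q1 - 4 * p0 = 0 := by
      have h5 : algebraMap ℂ N P.Q1 * (algebraMap ℂ N P.Q1 - 4 * p0) = 0 := by
        rw [← c2]
        ring
      exact (mul_eq_zero.1 h5).resolve_left hq
    apply hp0t
    have h6 : p0 = algebraMap ℂ N (P.Q1 / 4) := by
      rw [map_div₀, map_ofNat]
      field_simp
      linear_combination -h4
    rw [h6]
    exact isAlgebraic_algebraMap _
  obtain ⟨ε, hε⟩ : ∃ ε, ε = -s / algebraMap ℂ N P.Q1 := ⟨_, rfl⟩
  have hsε : s = -(algebraMap ℂ N P.Q1 * ε) := by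
    rw [hε]
    field_simp
  have h2 : algebraMap ℂ N P.Q1 * ε ^ 2 = algebraMap ℂ N P.Q1 - 4 * p0 := by
    apply mul_left_cancel₀ hq
    rw [← c2, hsε]
    ring
  have hs' : s' = ε * j0 := by
    apply mul_left_cancel₀ hs
    apply mul_left_cancel₀ (two_ne_zero (α := N))
    rw [← mul_assoc, c1, hsε]
    linear_combination 2 * j0 * h2 - 4 * hdisc
  have hεt : Transcendental ℂ ε := by
    intro halg
    obtain ⟨z, hz⟩ := const_of_alg halg
    apply hp0t
    have h6 : p0 = algebraMap ℂ N ((P.Q1 - P.Q1 * z ^ 2) / 4) := by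
      rw [map_div₀, map_ofNat, map_sub, map_mul, map_pow, hz]
      field_simp
      linear_combination h2
    rw [h6]
    exact isAlgebraic_algebraMap _
  -- the field
  obtain ⟨F, hF⟩ : ∃ F : IntermediateField ℂ N, F = cl0 {ε} := ⟨_, rfl⟩
  have hFc : ∀ u, IsAlgebraic F u → u ∈ F := by
    rw [hF]
    exact cl0_closed _
  have hεF : ε ∈ F := by
    rw [hF]
    exact subset_cl0 _ rfl
  have hcF : ∀ z : ℂ, algebraMap ℂ N z ∈ F := fun z => F.algebraMap_mem z
  have hp0F : p0 ∈ F := by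
    have h6 : p0 = (algebraMap ℂ N P.Q1 - algebraMap ℂ N P.Q1 * ε ^ 2) * algebraMap ℂ N (1 / 4) := by
      rw [map_div₀, map_ofNat, map_one]
      field_simp
      linear_combination h2
    rw [h6]
    exact mul_mem (sub_mem (hcF _) (mul_mem (hcF _) (pow_mem hεF 2))) (hcF _)
  have hWF : W ∈ F := by
    apply hFc
    refine IsAlgebraic.of_pow two_pos ?_
    have h6 : W ^ 2 = algebraMap ℂ N P.m - algebraMap ℂ N P.Q0 * p0 -
        algebraMap ℂ N P.Q1 * algebraMap ℂ N P.P0 * algebraMap ℂ N P.P2 / p0 := by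
      field_simp
      linear_combination h3
    have h7 : W ^ 2 ∈ F := by
      rw [h6]
      exact sub_mem (sub_mem (hcF _) (mul_mem (hcF _) hp0F))
        (div_mem (mul_mem (mul_mem (hcF _) (hcF _)) (hcF _)) hp0F)
    exact isAlgebraic_algebraMap (⟨W ^ 2, h7⟩ : F)
  have hsF : s ∈ F := by
    rw [hsε]
    exact neg_mem (mul_mem (hcF _) hεF)
  have hj0F : j0 ∈ F := by
    rw [hj0]
    exact sub_mem (add_mem (add_mem (pow_mem hWF 2) (mul_mem (hcF _) hp0F))
      (mul_mem (hcF _) (sub_mem hWF hp0F))) (hcF _)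
  have hs'F : s' ∈ F := by
    rw [hs']
    exact mul_mem hεF hj0F
  have hyF : y ∈ F := by
    apply hFc
    let g : F[X] := tPhi P (C (0 : F)) (C (0 : F) * X + C (⟨p0, hp0F⟩ : F))
      (C (-1 : F) * X + C ((⟨W, hWF⟩ : F) - ⟨p0, hp0F⟩)) X
      (C (⟨s, hsF⟩ : F) * X + C (⟨s', hs'F⟩ : F))
    have hg : g.map F.val.toRingHom = tPhi P (C 0 : N[X]) (C 0 * X + C p0)
        (C (-1) * X + C (W - p0)) X (C s * X + C s') := by
      change Polynomial.mapAlgHom F.val g = _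
      rw [map_tPhi]
      simp [Polynomial.coe_mapAlgHom]
    refine ⟨g, ?_, ?_⟩
    · intro h0
      apply hne
      rw [← hg, h0, Polynomial.map_zero]
    · have h6 : ((aeval y : N[X] →ₐ[N] N).restrictScalars ℂ) (tPhi P (C 0 : N[X]) (C 0 * X + C p0)
          (C (-1) * X + C (W - p0)) X (C s * X + C s')) =
          tPhi P 0 p0 (W - p0 - y) y (s * y + s') := by
        rw [map_tPhi]
        congr 1 <;> simp
        ring
      rw [hΦ, ← hg] at h6
      rw [aeval_def, ← eval_map]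
      have h7 : ((aeval y : N[X] →ₐ[N] N).restrictScalars ℂ) (g.map F.val.toRingHom) =
          eval y (g.map F.val.toRingHom) := by
        simp [aeval_def, eval₂_eq_eval_map]
      rw [h7] at h6
      exact h6
  -- the place
  subst hF
  obtain ⟨V, hV, hV1⟩ := exists_plc (N := ℂ) (N₁ := cl0 ({ε} : Set N))
    (t := ⟨ε, subset_cl0 _ rfl⟩) (by
      intro halg
      apply hεt
      exact halg.algHom (cl0 ({ε} : Set N)).val) (alg_cl hεt) 1
  have hVε : V.Val (⟨ε, hεF⟩ : cl0 ({ε} : Set N)) 1 := ⟨hV, hV1⟩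
  have key := Z0 V hP0 hP2 hQ1 huv hM1 hve hgh (ε := ⟨ε, hεF⟩) (p0 := ⟨p0, hp0F⟩)
    (W := ⟨W, hWF⟩) (y := ⟨y, hyF⟩) (S := ⟨s, hsF⟩ * ⟨y, hyF⟩ + ⟨s', hs'F⟩) hVε ?_ ?_ ?_ ?_ ?_
  · obtain ⟨k1, k2, k3, k4⟩ := key
    refine ⟨?_, ?_, ?_, ?_⟩
    · intro h
      apply k1
      apply Subtype.ext
      change (cl0 ({ε} : Set N)).val (fU P (⟨y, hyF⟩ : cl0 ({ε} : Set N))) = 0
      rw [map_fU]
      exact h
    · intro h
      apply k2
      apply Subtype.ext
      change (cl0 ({ε} : Set N)).val (fV P (⟨y, hyF⟩ : cl0 ({ε} : Set N))) = 0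
      rw [map_fV]
      exact h
    · intro h
      apply k3
      apply Subtype.ext
      change (cl0 ({ε} : Set N)).val ((dat P (⟨y, hyF⟩ : cl0 ({ε} : Set N))).E ⟨p0, hp0F⟩) = 0
      rw [← h]
      have h8 := map_dat P (cl0 ({ε} : Set N)).val (⟨y, hyF⟩ : cl0 ({ε} : Set N))
      rw [show dat P y = (dat P (⟨y, hyF⟩ : cl0 ({ε} : Set N))).map (cl0 ({ε} : Set N)).val
        from h8.symm]
      rfl
    · intro h
      apply k4
      apply Subtype.ext
      have h8 := map_h (dat P (⟨y, hyF⟩ : cl0 ({ε} : Set N))) (cl0 ({ε} : Set N)).val.toRingHom 0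
      rw [map_dat', map_zero] at h8
      exact h8.trans h
  · intro h
    apply hεt
    have h8 : ε = algebraMap ℂ N 1 := by
      rw [map_one]
      exact congrArg Subtype.val h
    rw [h8]
    exact isAlgebraic_algebraMap _
  · apply Subtype.ext
    exact h2
  · apply Subtype.ext
    exact h3
  · apply Subtype.ext
    change s * y + s' = ε * (dat P y).J0 p0 (W - p0 - y)
    rw [J0_zero hM1, hs', ← hj0, hsε]
    ring
  · apply Subtype.ext
    change (cl0 ({ε} : Set N)).val (tPhi P 0 (⟨p0, hp0F⟩ : cl0 ({ε} : Set N)) _ _ _) = 0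
    rw [map_tPhi, map_zero]
    exact hΦ

end Vale.Agent.P297.H871.Z2
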