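import Vale.Agent.P297.H72.Plc
import Vale.Agent.P297.H72.Z2.TDefs

/-!
General numerical Godeaux surfaces with torsion of order two: the points of the surface on the
lines through the node over `l = 0`, `ε → 1`, are generic.
-/

set_option linter.unusedSectionVars false
set_option linter.style.haveILetI false

namespace Vale.Agent.P297.H871.Z2

open Vale.Agent.P297 Vale.Agent.P297.H160.Z2Irr Vale.Agent.P297.H72 Vale.Agent.P297.Z2

section ring

variable {R : Type*} [CommRing R] (D : Dat R) {p r S μ ν J : R}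

/-- The equation of the surface in terms of `M = μ U E - ν V F`. -/
theorem star (hp : D.K 0 p r + S = 2 * μ ^ 2 * J) (hm : D.K 0 p r - S = 2 * ν ^ 2 * J)
    (hN : D.N p r = μ * ν * J) : D.U * D.V * D.Phi 0 p r S =
      2 * (J * (μ * D.U * D.E p - ν * D.V * D.F r) *
        (D.g * (μ * D.U * D.E p - ν * D.V * D.F r) - D.h 0 * (μ * D.U - ν * D.V))) +
      2 * D.U * D.V * D.h 0 * D.E p * D.F r := by
  have h1 := D.V_mul_al 0 p
  have h2 := D.U_mul_be 0 r
  unfold Dat.Phi
  rw [hp, hm, hN]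
  linear_combination (D.U ^ 2 * D.E p * (2 * μ ^ 2 * J)) * h1 +
    (D.V ^ 2 * D.F r * (2 * ν ^ 2 * J)) * h2

theorem Phi_U0 (hU : D.U = 0) : D.Phi 0 p r S = D.A ^ 2 * D.V ^ 4 * ((D.K 0 p r - S) *
    (D.V * (r + D.c) + D.e) + 2 * (D.V * D.N p r * (D.A - p) + D.A * D.V ^ 2 * p)) := by
  unfold Dat.Phi
  generalize D.K 0 p r = k
  generalize D.N p r = n
  unfold Dat.al Dat.be Dat.g Dat.h Dat.E Dat.F
  rw [hU]
  ring

theorem Phi_V0 (hV : D.V = 0) : D.Phi 0 p r S = D.B ^ 2 * D.U ^ 4 * ((D.K 0 p r + S) *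
    (D.U * (p + D.a) + D.e) + 2 * (D.U * D.N p r * (D.B - r) + D.B * D.U ^ 2 * r)) := by
  unfold Dat.Phi
  generalize D.K 0 p r = k
  generalize D.N p r = n
  unfold Dat.al Dat.be Dat.g Dat.h Dat.E Dat.F
  rw [hV]
  ring

theorem h_U0 (hU : D.U = 0) : D.h 0 = D.A ^ 2 * D.V ^ 4 := by
  unfold Dat.h
  rw [hU]
  ring

theorem h_V0 (hV : D.V = 0) : D.h 0 = D.B ^ 2 * D.U ^ 4 := by
  unfold Dat.h
  rw [hV]
  ring

theorem map_h {R' : Type*} [CommRing R'] (f : R →+* R') (l : R) :
    f (D.h l) = (D.map f).h (f l) := by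
  simp only [Dat.h, Dat.g, Dat.map, map_add, map_sub, map_mul, map_pow]

theorem map_g {R' : Type*} [CommRing R'] (f : R →+* R') : f D.g = (D.map f).g := by
  simp only [Dat.g, Dat.map, map_add, map_mul, map_pow]

end ring

theorem map_dat' {P : Par} {R R' : Type*} [CommRing R] [CommRing R'] [Algebra ℂ R] [Algebra ℂ R']
    (f : R →ₐ[ℂ] R') (y : R) : (dat P y).map f.toRingHom = dat P (f y) := map_dat P f y

section alg

variable {N : Type} [Field N] [Algebra ℂ N] {P : Par}

theorem h_negu : (dat P (-P.u)).h 0 = P.P0 ^ 2 * (P.v - P.u) ^ 4 := by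
  rw [h_U0 _ (by simp [dat, fU])]
  simp only [dat, fV, Algebra.algebraMap_self, RingHom.id_apply]
  ring

theorem h_negv : (dat P (-P.v)).h 0 = P.P2 ^ 2 * (P.u - P.v) ^ 4 := by
  rw [h_V0 _ (by simp [dat, fV])]
  simp only [dat, fU, Algebra.algebraMap_self, RingHom.id_apply]
  ring

/-- The roots of `h 0` are constants. -/
theorem exists_of_h0 (h0 : P.P0 ≠ 0) (huv : P.u ≠ P.v) {y : N} (hy : (dat P y).h 0 = 0) :
    ∃ z : ℂ, algebraMap ℂ N z = y ∧ (dat P z).h 0 = 0 := by
  have hne : (dat P (Polynomial.X : Polynomial ℂ)).h 0 ≠ 0 := by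
    intro h
    have h1 := map_h (dat P (Polynomial.X : Polynomial ℂ))
      (Polynomial.aeval (R := ℂ) (-P.u)).toRingHom 0
    rw [map_dat', h, map_zero, Polynomial.aeval_X, h_negu] at h1
    exact mul_ne_zero (pow_ne_zero 2 h0) (pow_ne_zero 4 (sub_ne_zero.2 huv.symm)) h1.symm
  have halg : IsAlgebraic ℂ y := by
    refine ⟨(dat P (Polynomial.X : Polynomial ℂ)).h 0, hne, ?_⟩
    have h1 := map_h (dat P (Polynomial.X : Polynomial ℂ))
      (Polynomial.aeval (R := ℂ) y).toRingHom 0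
    rw [map_dat', map_zero, Polynomial.aeval_X, hy] at h1
    exact h1
  obtain ⟨z, hz⟩ : y ∈ (algebraMap ℂ N).range :=
    minpoly.mem_range_of_degree_eq_one ℂ y
      (IsAlgClosed.degree_eq_one_of_irreducible ℂ (minpoly.irreducible halg.isIntegral))
  refine ⟨z, hz, ?_⟩
  have h1 := map_h (dat P z) (Algebra.ofId ℂ N).toRingHom 0
  rw [map_dat', map_zero] at h1
  have h2 : (Algebra.ofId ℂ N) z = y := hz
  rw [h2, hy] at h1
  exact (map_eq_zero _).1 h1

end alg

section plc

variable {N : Type} [Field N] [Algebra ℂ N] {V : Plc ℂ N}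

/-- An element whose square has value zero has value zero. -/
theorem val_of_sq {x : N} (h : V.Val (x ^ 2) 0) : V.Val x 0 := by
  rcases V.val_or x with ⟨a, ha⟩ | h1
  · have h2 := (ha.pow 2).unique h
    rw [(pow_eq_zero_iff two_ne_zero).1 h2] at ha
    exact ha
  · by_cases hx : x = 0
    · rw [hx]
      exact V.val_zero
    · exfalso
      have h2 := (h1.pow 2).mul h
      rw [← mul_pow, inv_mul_cancel₀ hx, one_pow] at h2
      have h3 := h2.unique V.val_one
      simp at h3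

end plc

/-- **[Z0]** The points of the surface on the lines through the node over `l = 0`, `ε → 1`. -/
theorem Z0 {N' : Type} [Field N'] [Algebra ℂ N'] (V : H72.Plc ℂ N') {P : Par}
    (hP0 : P.P0 ≠ 0) (hP2 : P.P2 ≠ 0) (hQ1 : P.Q1 ≠ 0) (huv : P.u ≠ P.v) (hM1 : P.M1 = 0)
    (hve : (P.u - P.v) * (P.Q0 - 2 * P.v) + P.n - P.v ^ 2 - P.P1 * P.v ≠ 0)
    (hgh : ∀ z : ℂ, (dat P z).h 0 = 0 → (dat P z).g ≠ 0) {ε p0 W y S : N'} (hε : V.Val ε 1)
    (h1 : ε ≠ 1) (h2 : algebraMap ℂ N' P.Q1 * ε ^ 2 = algebraMap ℂ N' P.Q1 - 4 * p0)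
    (h3 : p0 * (W ^ 2 + algebraMap ℂ N' P.Q0 * p0 - algebraMap ℂ N' P.m) +
      algebraMap ℂ N' P.Q1 * algebraMap ℂ N' P.P0 * algebraMap ℂ N' P.P2 = 0)
    (hS : S = ε * (dat P y).J0 p0 (W - p0 - y)) (hΦ : tPhi P 0 p0 (W - p0 - y) y S = 0) :
    fU P y ≠ 0 ∧ fV P y ≠ 0 ∧ (dat P y).E p0 ≠ 0 ∧ (dat P y).h 0 ≠ 0 := by
  have : CharZero N' := charZero_of_injective_algebraMap (algebraMap ℂ N').injective
  have two : (2 : N') ≠ 0 := two_ne_zero
  have hA : algebraMap ℂ N' P.P0 ≠ 0 := (map_ne_zero _).2 hP0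
  have hB : algebraMap ℂ N' P.P2 ≠ 0 := (map_ne_zero _).2 hP2
  have hq : algebraMap ℂ N' P.Q1 ≠ 0 := (map_ne_zero _).2 hQ1
  have vA : V.Val (algebraMap ℂ N' P.P0) P.P0 := V.val_const _
  have vB : V.Val (algebraMap ℂ N' P.P2) P.P2 := V.val_const _
  have vq : V.Val (algebraMap ℂ N' P.Q1) P.Q1 := V.val_const _
  have vm : V.Val (algebraMap ℂ N' P.m) P.m := V.val_const _
  have vq0 : V.Val (algebraMap ℂ N' P.Q0) P.Q0 := V.val_const _
  have v2 : V.Val (2 : N') (2 : ℂ) := by
    have h := V.val_const (2 : ℂ)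
    rwa [map_ofNat] at h
  obtain ⟨μ, hμ⟩ : ∃ μ, μ = (1 + ε) / 2 := ⟨_, rfl⟩
  obtain ⟨ν, hν⟩ : ∃ ν, ν = (1 - ε) / 2 := ⟨_, rfl⟩
  have vμ : V.Val μ 1 := by
    have h := (V.val_one.add hε).div v2 two_ne_zero
    rw [hμ]
    convert h using 1
    norm_num
  have vν : V.Val ν 0 := by
    have h := (V.val_one.sub hε).div v2 two_ne_zero
    rw [hν]
    convert h using 1
    norm_num
  have hν0 : ν ≠ 0 := by
    rw [hν]
    exact div_ne_zero (sub_ne_zero.2 h1.symm) two
  have hp : algebraMap ℂ N' P.Q1 * μ * ν = p0 := by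
    rw [hμ, hν]
    linear_combination (-1 / 4 : N') * h2
  have vp : V.Val p0 0 := by
    have h := (vq.mul vμ).mul vν
    rw [hp] at h
    simpa using h
  have hp0 : p0 ≠ 0 := by
    rintro rfl
    rw [zero_mul, zero_add] at h3
    exact mul_ne_zero (mul_ne_zero hq hA) hB h3
  obtain ⟨r, hr⟩ : ∃ r, r = W - p0 - y := ⟨_, rfl⟩
  rw [← hr] at hS hΦ
  obtain ⟨D, hD⟩ : ∃ D, D = dat P y := ⟨_, rfl⟩
  have hΦ' : D.Phi 0 p0 r S = 0 := by rw [hD]; exact hΦ
  have hDA : D.A = algebraMap ℂ N' P.P0 := by rw [hD]; rfl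
  have hDB : D.B = algebraMap ℂ N' P.P2 := by rw [hD]; rfl
  have hDU : D.U = fU P y := by rw [hD]; rfl
  have hDV : D.V = fV P y := by rw [hD]; rfl
  have hDa : D.a = fa P y := by rw [hD]; rfl
  have hDc : D.c = fc P y := by rw [hD]; rfl
  have hDe : D.e = fe P y := by rw [hD]; rfl
  have hDm : D.m = algebraMap ℂ N' P.m - y ^ 2 := by
    rw [hD]
    change fm P y = _
    unfold fm
    rw [hM1, map_zero, zero_mul, add_zero]
  rw [← hDA, ← hDB] at h3
  rw [← hDA] at hA vA
  rw [← hDB] at hB vB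
  rw [← hD] at hS
  obtain ⟨J, hJ⟩ : ∃ J, J = D.J0 p0 r := ⟨_, rfl⟩
  rw [← hJ] at hS
  have hN1 : algebraMap ℂ N' P.Q1 * D.N p0 r = p0 * J := by
    rw [hJ]
    unfold Dat.N Dat.J0
    rw [hDa, hDc, hDm, hr]
    unfold fa fc
    linear_combination -h3
  have hN : D.N p0 r = μ * ν * J := by
    apply mul_left_cancel₀ hq
    rw [hN1]
    linear_combination (-J) * hp
  have hKp : D.K 0 p0 r + S = 2 * μ ^ 2 * J := by
    unfold Dat.K
    rw [hN, hS, ← hJ, hμ, hν]
    ring
  have hKm : D.K 0 p0 r - S = 2 * ν ^ 2 * J := by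
    unfold Dat.K
    rw [hN, hS, ← hJ, hμ, hν]
    ring
  have hst := star D hKp hKm hN
  rw [hΦ', mul_zero] at hst
  have hJp : p0 * J = algebraMap ℂ N' P.Q1 * (p0 * r) - algebraMap ℂ N' P.Q1 * D.A * D.B := by
    rw [← hN1]
    unfold Dat.N
    ring
  have vWp : V.Val (W * p0) 0 := by
    apply val_of_sq
    have h4 : (W * p0) ^ 2 = p0 * ((algebraMap ℂ N' P.m - algebraMap ℂ N' P.Q0 * p0) * p0 -
        algebraMap ℂ N' P.Q1 * D.A * D.B) := by
      linear_combination p0 * h3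
    rw [h4]
    have h5 := vp.mul (((vm.sub (vq0.mul vp)).mul vp).sub ((vq.mul vA).mul vB))
    simpa using h5
  have key : ∀ y0 : ℂ, V.Val y y0 → V.Val (p0 * r) 0 ∧
      V.Val (p0 * J) (-(P.Q1 * P.P0 * P.P2)) ∧ V.Val (D.N p0 r) (-(P.P0 * P.P2)) ∧ J ≠ 0 := by
    intro y0 hy
    have k1 : V.Val (p0 * r) 0 := by
      have h4 : p0 * r = W * p0 - p0 * p0 - y * p0 := by rw [hr]; ring
      rw [h4]
      have h5 := (vWp.sub (vp.mul vp)).sub (hy.mul vp)
      simpa using h5
    have k2 : V.Val (p0 * J) (-(P.Q1 * P.P0 * P.P2)) := by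
      rw [hJp]
      have h5 := (vq.mul k1).sub ((vq.mul vA).mul vB)
      simpa using h5
    refine ⟨k1, k2, ?_, ?_⟩
    · have h5 := k1.sub (vA.mul vB)
      rw [zero_sub] at h5
      exact h5
    · intro h0
      rw [h0, mul_zero] at k2
      exact neg_ne_zero.2 (mul_ne_zero (mul_ne_zero hQ1 hP0) hP2) (k2.unique V.val_zero)
  -- `U ≠ 0`
  have cU : fU P y ≠ 0 := by
    intro hU
    have hy : V.Val y (-P.u) := by
      have h4 : y = -algebraMap ℂ N' P.u := by
        unfold fU at hU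
        linear_combination hU
      rw [h4]
      exact (V.val_const _).neg
    obtain ⟨k1, k2, k3, k4⟩ := key _ hy
    have vV : V.Val D.V (-P.u + P.v) := by
      rw [hDV]
      exact hy.add (V.val_const _)
    have hV0 : -P.u + P.v ≠ 0 := by
      intro h0
      apply huv
      linear_combination -h0
    have vc : V.Val D.c (2 * (-P.u) + P.Q1) := by
      rw [hDc]
      exact (v2.mul hy).add (V.val_const _)
    have ve : V.Val D.e (P.n - (-P.u) ^ 2 + P.P1 * (-P.u)) := by
      rw [hDe]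
      exact ((V.val_const _).sub (hy.pow 2)).add ((V.val_const _).mul hy)
    have hE := Phi_U0 D (p := p0) (r := r) (S := S) (by rw [hDU, hU])
    rw [hΦ', hKm] at hE
    have hV1 : D.V ≠ 0 := vV.ne_zero hV0
    have hE' := (mul_eq_zero.1 hE.symm).resolve_left (mul_ne_zero (pow_ne_zero 2 hA)
      (pow_ne_zero 4 hV1))
    have hT : D.N p0 r * (D.V * (p0 * r) + p0 * (D.V * D.c + D.e)) +
        algebraMap ℂ N' P.Q1 * μ ^ 2 * (D.N p0 r * D.V * (D.A - p0)) +
        algebraMap ℂ N' P.Q1 * μ ^ 2 * (D.A * D.V ^ 2 * p0) = 0 := by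
      linear_combination (algebraMap ℂ N' P.Q1 * μ ^ 2 / 2) * hE' +
        ((D.V * (r + D.c) + D.e) * p0) * hN -
        ((D.V * (r + D.c) + D.e) * μ * ν * J) * hp
    have vT := ((k3.mul ((vV.mul k1).add (vp.mul ((vV.mul vc).add ve)))).add
      ((vq.mul (vμ.pow 2)).mul ((k3.mul vV).mul (vA.sub vp)))).add
      ((vq.mul (vμ.pow 2)).mul ((vA.mul (vV.pow 2)).mul vp))
    rw [hT] at vT
    have h6 := vT.unique V.val_zero
    apply mul_ne_zero (mul_ne_zero (mul_ne_zero hQ1 (pow_ne_zero 2 hP0)) hP2) hV0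
    linear_combination -h6
  have cV : fV P y ≠ 0 := by
    intro hV
    have hy : V.Val y (-P.v) := by
      have h4 : y = -algebraMap ℂ N' P.v := by
        unfold fV at hV
        linear_combination hV
      rw [h4]
      exact (V.val_const _).neg
    obtain ⟨k1, k2, k3, k4⟩ := key _ hy
    have vU : V.Val D.U (-P.v + P.u) := by
      rw [hDU]
      exact hy.add (V.val_const _)
    have hU0 : -P.v + P.u ≠ 0 := by
      intro h0
      apply huv
      linear_combination h0
    have va : V.Val D.a (2 * (-P.v) + P.Q0) := by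
      rw [hDa]
      exact (v2.mul hy).add (V.val_const _)
    have ve : V.Val D.e (P.n - (-P.v) ^ 2 + P.P1 * (-P.v)) := by
      rw [hDe]
      exact ((V.val_const _).sub (hy.pow 2)).add ((V.val_const _).mul hy)
    have hE := Phi_V0 D (p := p0) (r := r) (S := S) (by rw [hDV, hV])
    rw [hΦ', hKp] at hE
    have hU1 : D.U ≠ 0 := vU.ne_zero hU0
    have hE' := (mul_eq_zero.1 hE.symm).resolve_left (mul_ne_zero (pow_ne_zero 2 hB)
      (pow_ne_zero 4 hU1))
    have hT : (p0 * J) * (μ ^ 2 * (D.U * (p0 + D.a) + D.e)) +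
        D.N p0 r * D.U * (D.B * p0 - p0 * r) + D.B * D.U ^ 2 * (p0 * r) = 0 := by
      linear_combination (p0 / 2) * hE'
    have vT := ((k2.mul ((vμ.pow 2).mul ((vU.mul (vp.add va)).add ve))).add
      ((k3.mul vU).mul ((vB.mul vp).sub k1))).add ((vB.mul (vU.pow 2)).mul k1)
    rw [hT] at vT
    have h6 := vT.unique V.val_zero
    apply mul_ne_zero (mul_ne_zero (mul_ne_zero hQ1 hP0) hP2) hve
    linear_combination -h6
  refine ⟨cU, cV, ?_, ?_⟩
  · -- `E ≠ 0`
    intro hE
    rw [← hD] at hE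
    have hE0 : D.V * p0 + D.B * D.U = 0 := hE
    have hy : V.Val y (-P.u) := by
      have h4 : y = -(algebraMap ℂ N' P.v * p0 + algebraMap ℂ N' P.u * D.B) / (p0 + D.B) := by
        have h5 : p0 + D.B ≠ 0 := (vp.add vB).ne_zero (by rw [zero_add]; exact hP2)
        rw [eq_div_iff h5]
        have h6 := hE0
        rw [hDV, hDU] at h6
        unfold fV fU at h6
        linear_combination h6
      rw [h4]
      have h5 := (((V.val_const P.v).mul vp).add ((V.val_const P.u).mul vB)).neg.div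
        (vp.add vB) (by rw [zero_add]; exact hP2)
      convert h5 using 1
      rw [mul_zero, zero_add, zero_add, neg_div, mul_div_cancel_right₀ _ hP2]
    obtain ⟨k1, k2, k3, k4⟩ := key _ hy
    have vU : V.Val D.U (-P.u + P.u) := by
      rw [hDU]
      exact hy.add (V.val_const _)
    have vV : V.Val D.V (-P.u + P.v) := by
      rw [hDV]
      exact hy.add (V.val_const _)
    have hV0 : -P.u + P.v ≠ 0 := by
      intro h0
      apply huv
      linear_combination -h0
    have va : V.Val D.a (2 * (-P.u) + P.Q0) := by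
      rw [hDa]
      exact (v2.mul hy).add (V.val_const _)
    have vc : V.Val D.c (2 * (-P.u) + P.Q1) := by
      rw [hDc]
      exact (v2.mul hy).add (V.val_const _)
    have ve : V.Val D.e (P.n - (-P.u) ^ 2 + P.P1 * (-P.u)) := by
      rw [hDe]
      exact ((V.val_const _).sub (hy.pow 2)).add ((V.val_const _).mul hy)
    have vmm : V.Val D.m (P.m - (-P.u) ^ 2) := by
      rw [hDm]
      exact vm.sub (hy.pow 2)
    have vg : V.Val D.g (P.P0 * (-P.u + P.v) ^ 3) := by
      have h5 := (((vU.mul vV).mul ve).add (vA.mul (vV.pow 3))).add (vB.mul (vU.pow 3))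
      unfold Dat.g
      convert h5 using 1
      ring
    have vh : V.Val (D.h 0) (P.P0 ^ 2 * (-P.u + P.v) ^ 4) := by
      have h5 := ((((((vB.mul (vU.pow 2)).add (vA.mul (vV.pow 2))).pow 2).sub
        (((va.mul vB).mul (vU.pow 3)).mul vV)).sub (((vc.mul vA).mul (vV.pow 3)).mul vU)).sub
        ((vmm.mul (vU.pow 2)).mul (vV.pow 2))).add (((V.val_zero.mul vU).mul vV).mul vg)
      unfold Dat.h
      convert h5 using 1
      ring
    have vUr : V.Val (D.U * r) 0 := by
      have h4 : D.U * r = -(D.V * (p0 * r)) / D.B := by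
        rw [eq_div_iff hB]
        linear_combination r * hE0
      rw [h4]
      have h5 := (vV.mul k1).neg.div vB hP2
      simpa using h5
    have vF : V.Val (D.F r) (P.P0 * (-P.u + P.v)) := by
      have h5 := vUr.add (vA.mul vV)
      rw [zero_add] at h5
      exact h5
    have hV1 : D.V ≠ 0 := vV.ne_zero hV0
    have hF1 : D.F r ≠ 0 := vF.ne_zero (mul_ne_zero hP0 hV0)
    rw [hE, mul_zero, mul_zero, zero_mul, add_zero] at hst
    have hG : D.g * (0 - ν * D.V * D.F r) - D.h 0 * (μ * D.U - ν * D.V) = 0 := by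
      have h5 := (mul_eq_zero.1 hst.symm).resolve_left two
      refine (mul_eq_zero.1 h5).resolve_left ?_
      refine mul_ne_zero k4 ?_
      rw [zero_sub]
      exact neg_ne_zero.2 (mul_ne_zero (mul_ne_zero hν0 hV1) hF1)
    have hT : p0 * D.V * (D.g * D.F r * D.B - D.h 0 * (algebraMap ℂ N' P.Q1 * μ ^ 2 + D.B)) = 0 := by
      linear_combination (-(algebraMap ℂ N' P.Q1 * μ * D.B)) * hG -
        (D.g * D.V * D.F r * D.B - D.h 0 * D.V * D.B) * hp -
        (D.h 0 * algebraMap ℂ N' P.Q1 * μ ^ 2) * hE0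
    have hT' := (mul_eq_zero.1 hT).resolve_left (mul_ne_zero hp0 hV1)
    have vT := ((vg.mul vF).mul vB).sub (vh.mul ((vq.mul (vμ.pow 2)).add vB))
    rw [hT'] at vT
    have h6 := vT.unique V.val_zero
    apply mul_ne_zero (mul_ne_zero hQ1 (pow_ne_zero 2 hP0)) (pow_ne_zero 4 hV0)
    linear_combination -h6
  · -- `h ≠ 0`
    intro hh
    obtain ⟨z, hz, hz0⟩ := exists_of_h0 hP0 huv hh
    have hy : V.Val y z := by
      rw [← hz]
      exact V.val_const _
    obtain ⟨k1, k2, k3, k4⟩ := key _ hy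
    have vU : V.Val D.U (z + P.u) := by
      rw [hDU]
      exact hy.add (V.val_const _)
    have vV : V.Val D.V (z + P.v) := by
      rw [hDV]
      exact hy.add (V.val_const _)
    have hUz : z + P.u ≠ 0 := by
      intro h0
      have h4 : z = -P.u := by linear_combination h0
      rw [h4, h_negu] at hz0
      exact mul_ne_zero (pow_ne_zero 2 hP0) (pow_ne_zero 4 (sub_ne_zero.2 huv.symm)) hz0
    have hg : D.g ≠ 0 := by
      intro h0
      apply hgh z hz0
      have h4 := map_g (dat P z) (Algebra.ofId ℂ N').toRingHom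
      rw [map_dat'] at h4
      have h5 : (Algebra.ofId ℂ N') z = y := hz
      rw [h5, ← hD, h0] at h4
      exact (map_eq_zero _).1 h4
    rw [← hD] at hh
    rw [hh, zero_mul, sub_zero, mul_zero, zero_mul, zero_mul, add_zero] at hst
    have hG : μ * D.U * D.E p0 - ν * D.V * D.F r = 0 := by
      have h5 := (mul_eq_zero.1 hst.symm).resolve_left two
      rcases mul_eq_zero.1 h5 with h6 | h6
      · exact (mul_eq_zero.1 h6).resolve_left k4
      · exact (mul_eq_zero.1 h6).resolve_left hg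
    have hT : algebraMap ℂ N' P.Q1 * μ ^ 2 * (D.U * (D.V * p0 + D.B * D.U)) -
        D.V * (D.U * (p0 * r) + D.A * D.V * p0) = 0 := by
      unfold Dat.E Dat.F at hG
      linear_combination (algebraMap ℂ N' P.Q1 * μ) * hG + (D.V * (D.U * r + D.A * D.V)) * hp
    have vT := ((vq.mul (vμ.pow 2)).mul (vU.mul ((vV.mul vp).add (vB.mul vU)))).sub
      (vV.mul ((vU.mul k1).add ((vA.mul vV).mul vp)))
    rw [hT] at vT
    have h6 := vT.unique V.val_zero
    apply mul_ne_zero (mul_ne_zero hQ1 hP2) (pow_ne_zero 2 hUz)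
    linear_combination h6

end Vale.Agent.P297.H871.Z2
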